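import Vale.Agent.P284.H419.K.Ext
import Vale.Agent.P272.K.Inv.Hess
import Mathlib.Analysis.Calculus.FDeriv.ContinuousAlternatingMap

/-!
# P284, theorem K, K3 half A (helper551): change of chart and frame, local computations
-/

open scoped ContDiff Topology ComplexConjugate ComplexOrder ENNReal
open Filter Set MeasureTheory

set_option linter.unusedSectionVars false

noncomputable section

namespace Vale.Agent.P284.H551.K

open Vale.Agent.P272.K Vale.Agent.P284.H608.K

section lin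
variable {n : ℕ} {V : Type} [NormedAddCommGroup V] [NormedSpace ℂ V]

/-- the antilinear part of a real-linear map -/
def dbT (T : Cm n →L[ℝ] V) (u : Cm n) : V := (2 : ℂ)⁻¹ • (T u + Complex.I • T (Complex.I • u))

/-- the linear part of a real-linear map -/
def dzT (T : Cm n →L[ℝ] V) (u : Cm n) : V := (2 : ℂ)⁻¹ • (T u - Complex.I • T (Complex.I • u))

theorem I_single (b : Fin n) : (Complex.I • Pi.single b 1 : Cm n) = Pi.single b Complex.I := by
  ext k
  by_cases h : k = b
  · subst h; simp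
  · simp [Pi.single_eq_of_ne h]

theorem dbV_eq (b : Fin n) (η : Cm n → V) (z : Cm n) :
    dbV b η z = dbT (fderiv ℝ η z) (Pi.single b 1) := by
  rw [dbV, dbT, I_single]

theorem dzV_eq (b : Fin n) (η : Cm n → V) (z : Cm n) :
    dzV b η z = dzT (fderiv ℝ η z) (Pi.single b 1) := by
  rw [dzV, dzT, I_single]

theorem dbT_smulR (T : Cm n →L[ℝ] V) (r : ℝ) (u : Cm n) : dbT T (r • u) = r • dbT T u := by
  simp only [dbT, smul_comm Complex.I r u, map_smul, smul_add, smul_comm _ r]

theorem dbT_add (T : Cm n →L[ℝ] V) (u v : Cm n) : dbT T (u + v) = dbT T u + dbT T v := by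
  simp only [dbT, smul_add, map_add]
  abel

theorem dzT_add (T : Cm n →L[ℝ] V) (u v : Cm n) : dzT T (u + v) = dzT T u + dzT T v := by
  simp only [dzT, smul_add, map_add, smul_sub]
  abel

theorem smul_re_im (c : ℂ) (u : Cm n) : c • u = c.re • u + c.im • (Complex.I • u) := by
  funext k
  simp only [Pi.smul_apply, Pi.add_apply, smul_eq_mul, Complex.real_smul]
  linear_combination -(u k) * (Complex.re_add_im c)

theorem I_smul_re_im (c : ℂ) (u : Cm n) :
    Complex.I • c • u = c.re • (Complex.I • u) + (-c.im) • u := by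
  funext k
  simp only [Pi.smul_apply, Pi.add_apply, smul_eq_mul, Complex.real_smul]
  push_cast
  linear_combination -(Complex.I * u k) * (Complex.re_add_im c) + (c.im : ℂ) * u k * Complex.I_sq

theorem dbT_smul (T : Cm n →L[ℝ] V) (c : ℂ) (u : Cm n) : dbT T (c • u) = conj c • dbT T u := by
  have h3 : conj c = (c.re : ℂ) - c.im * Complex.I := by
    apply Complex.ext <;> simp
  have e : ∀ (r : ℝ) (x : Cm n), T (r • x) = (r : ℂ) • T x := fun r x => T.map_smul r x
  rw [dbT, dbT, I_smul_re_im c u, smul_re_im c u, map_add, map_add, e, e, e, e, h3]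
  match_scalars
  · ring
  · linear_combination ((c.im : ℂ) / 2) * Complex.I_sq

theorem dzT_smul (T : Cm n →L[ℝ] V) (c : ℂ) (u : Cm n) : dzT T (c • u) = c • dzT T u := by
  have h3 : c = (c.re : ℂ) + c.im * Complex.I := (Complex.re_add_im c).symm
  have e : ∀ (r : ℝ) (x : Cm n), T (r • x) = (r : ℂ) • T x := fun r x => T.map_smul r x
  rw [dzT, dzT, I_smul_re_im c u, smul_re_im c u, map_add, map_add, e, e, e, e]
  conv_rhs => rw [h3]
  match_scalars
  · ring
  · linear_combination ((c.im : ℂ) / 2) * Complex.I_sq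

theorem dbT_zero (T : Cm n →L[ℝ] V) : dbT T 0 = 0 := by simp [dbT]
theorem dzT_zero (T : Cm n →L[ℝ] V) : dzT T 0 = 0 := by simp [dzT]

theorem sum_single (u : Cm n) : u = ∑ c, u c • (Pi.single c (1 : ℂ) : Cm n) := by
  funext k
  rw [Finset.sum_apply, Finset.sum_eq_single k]
  · simp
  · intro b _ hb
    simp [Pi.single_eq_of_ne (Ne.symm hb)]
  · simp

theorem dbT_sum (T : Cm n →L[ℝ] V) (u : Cm n) :
    dbT T u = ∑ c, conj (u c) • dbT T (Pi.single c 1) := by
  have h : ∀ s : Finset (Fin n), dbT T (∑ c ∈ s, u c • (Pi.single c (1 : ℂ) : Cm n)) =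
      ∑ c ∈ s, conj (u c) • dbT T (Pi.single c 1) := by
    intro s
    induction s using Finset.cons_induction with
    | empty => simp [dbT_zero]
    | cons a s ha ih => rw [Finset.sum_cons, Finset.sum_cons, dbT_add, dbT_smul, ih]
  conv_lhs => rw [sum_single u]
  exact h _

theorem dzT_sum (T : Cm n →L[ℝ] V) (u : Cm n) :
    dzT T u = ∑ c, u c • dzT T (Pi.single c 1) := by
  have h : ∀ s : Finset (Fin n), dzT T (∑ c ∈ s, u c • (Pi.single c (1 : ℂ) : Cm n)) =
      ∑ c ∈ s, u c • dzT T (Pi.single c 1) := by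
    intro s
    induction s using Finset.cons_induction with
    | empty => simp [dzT_zero]
    | cons a s ha ih => rw [Finset.sum_cons, Finset.sum_cons, dzT_add, dzT_smul, ih]
  conv_lhs => rw [sum_single u]
  exact h _

end lin

section wd
variable {n p : ℕ}

/-- `ℓ ∧ A` -/
def wdL (ℓ : Cm n →L[ℂ] ℂ) (A : Af n p) : Af n (p + 1) :=
  ContinuousAlternatingMap.alternatizeUncurryFin (ℓ.smulRight A)

theorem wdz_def (c : Fin n) (A : Af n p) :
    wdz c A = wdL (ContinuousLinearMap.proj (R := ℂ) (φ := fun _ : Fin n => ℂ) c) A := rfl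

/-- `alternatizeUncurryFin` as a linear map -/
abbrev AU (n p : ℕ) : (Cm n →L[ℂ] Af n p) →L[ℂ] Af n (p + 1) :=
  ContinuousAlternatingMap.alternatizeUncurryFinCLM ℂ (Cm n) ℂ

theorem wdL_eq (ℓ : Cm n →L[ℂ] ℂ) (A : Af n p) : wdL ℓ A = AU n p (ℓ.smulRight A) := rfl

theorem wdL_sum {κ : Type} (s : Finset κ) (ℓ : κ → Cm n →L[ℂ] ℂ) (A : Af n p) :
    wdL (∑ c ∈ s, ℓ c) A = ∑ c ∈ s, wdL (ℓ c) A := by
  simp only [wdL_eq]
  rw [← map_sum]
  congr 1
  ext v
  simp [Finset.sum_smul]

theorem wdL_smul (c : ℂ) (ℓ : Cm n →L[ℂ] ℂ) (A : Af n p) : wdL (c • ℓ) A = c • wdL ℓ A := by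
  simp only [wdL_eq]
  rw [← map_smul]
  congr 1
  ext v
  simp [mul_smul]

theorem wdL_smul_right (c : ℂ) (ℓ : Cm n →L[ℂ] ℂ) (A : Af n p) : wdL ℓ (c • A) = c • wdL ℓ A := by
  simp only [wdL_eq]
  rw [← map_smul]
  congr 1
  ext v
  simp [smul_comm c]

theorem wdL_add_right (ℓ : Cm n →L[ℂ] ℂ) (A B : Af n p) : wdL ℓ (A + B) = wdL ℓ A + wdL ℓ B := by
  simp only [wdL_eq]
  rw [← map_add]
  congr 1
  ext v
  simp

theorem wdL_sub_right (ℓ : Cm n →L[ℂ] ℂ) (A B : Af n p) : wdL ℓ (A - B) = wdL ℓ A - wdL ℓ B := by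
  simp only [wdL_eq]
  rw [← map_sub]
  congr 1
  ext v
  simp [smul_sub]

theorem wdL_sum_right {κ : Type} (s : Finset κ) (ℓ : Cm n →L[ℂ] ℂ) (A : κ → Af n p) :
    wdL ℓ (∑ c ∈ s, A c) = ∑ c ∈ s, wdL ℓ (A c) := by
  induction s using Finset.cons_induction with
  | empty =>
    rw [Finset.sum_empty, Finset.sum_empty, wdL_eq]
    have : ℓ.smulRight (0 : Af n p) = 0 := by ext v; simp
    rw [this, map_zero]
  | cons a s ha ih => rw [Finset.sum_cons, Finset.sum_cons, wdL_add_right, ih]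

theorem wdL_pull (ℓ : Cm n →L[ℂ] ℂ) (A : Af n p) (L : Cm n →L[ℂ] Cm n) :
    (wdL ℓ A).compContinuousLinearMap L = wdL (ℓ.comp L) (A.compContinuousLinearMap L) := by
  ext v
  simp only [wdL, ContinuousAlternatingMap.compContinuousLinearMap_apply,
    ContinuousAlternatingMap.alternatizeUncurryFin_apply]
  refine Finset.sum_congr rfl fun i _ => ?_
  rfl

theorem proj_comp (L : Cm n →L[ℂ] Cm n) (c : Fin n) :
    (ContinuousLinearMap.proj (R := ℂ) (φ := fun _ : Fin n => ℂ) c).comp L =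
      ∑ b, L (Pi.single b 1) c • ContinuousLinearMap.proj (R := ℂ) (φ := fun _ : Fin n => ℂ) b := by
  ext u
  simp only [ContinuousLinearMap.comp_apply, ContinuousLinearMap.proj_apply,
    sum_apply, smul_apply, smul_eq_mul]
  conv_lhs => rw [sum_single u, map_sum]
  rw [Finset.sum_apply]
  refine Finset.sum_congr rfl fun b _ => ?_
  rw [map_smul, Pi.smul_apply, smul_eq_mul, mul_comm]

theorem wdz_pull (c : Fin n) (A : Af n p) (L : Cm n →L[ℂ] Cm n) :
    (wdz c A).compContinuousLinearMap L =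
      ∑ b, L (Pi.single b 1) c • wdz b (A.compContinuousLinearMap L) := by
  rw [wdz_def, wdL_pull, proj_comp, wdL_sum]
  refine Finset.sum_congr rfl fun b _ => ?_
  rw [wdL_smul, wdz_def]

theorem dhL_eq (φ : Cm n → ℝ) (η : Cm n → Af n p) (z : Cm n) :
    dhL φ η z = ∑ a, wdz a (dzV a η z - dz a (fun y => (φ y : ℂ)) z • η z) := by
  rw [dhL, ← ContinuousAlternatingMap.alternatizeUncurryFinCLM_apply, map_sum]
  rfl

end wd

section chg
variable {n p : ℕ} {Φ : Cm n → Cm n} {z : Cm n} {a : Cm n → ℂ} {η : Cm n → Af n p}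

/-- the derivative of a pulled back form -/
theorem fderiv_pull {L : Cm n → Cm n →L[ℂ] Cm n}
    (hΦ : DifferentiableAt ℂ Φ z) (hη : DifferentiableAt ℝ η (Φ z))
    (hL : DifferentiableAt ℂ L z) (ha : DifferentiableAt ℂ a z) (v : Cm n) :
    fderiv ℝ (fun y => a y • (η (Φ y)).compContinuousLinearMap (L y)) z v =
      fderiv ℂ a z v • (η (Φ z)).compContinuousLinearMap (L z) +
      a z • ((fderiv ℝ η (Φ z) (fderiv ℂ Φ z v)).compContinuousLinearMap (L z) +
        (η (Φ z)).fderivCompContinuousLinearMap (L z) (fderiv ℂ L z v)) := by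
  have h1 := (ContinuousAlternatingMap.hasStrictFDerivAt_compContinuousLinearMap
    (𝕜 := ℂ) (H := ℂ) (η (Φ z), L z)).hasFDerivAt
  have h2 := h1.restrictScalars ℝ
  have h3 : HasFDerivAt (fun y => (η (Φ y), L y)) (((fderiv ℝ η (Φ z)).comp
      ((fderiv ℂ Φ z).restrictScalars ℝ)).prod ((fderiv ℂ L z).restrictScalars ℝ)) z :=
    (hη.hasFDerivAt.comp z (hΦ.hasFDerivAt.restrictScalars ℝ)).prodMk
      (hL.hasFDerivAt.restrictScalars ℝ)
  have h4 := HasFDerivAt.comp z (f := fun y => (η (Φ y), L y)) h2 h3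
  have h5 := (ha.hasFDerivAt.restrictScalars ℝ).smul h4
  have h6 : fderiv ℝ (fun y => a y • (η (Φ y)).compContinuousLinearMap (L y)) z = _ := h5.fderiv
  rw [h6, add_comm]
  rfl

/-- pullback of forms, as a linear map -/
def PB (p : ℕ) (L : Cm n →L[ℂ] Cm n) : Af n p →L[ℂ] Af n p :=
  ContinuousAlternatingMap.compContinuousLinearMapCLM L

theorem PB_apply (L : Cm n →L[ℂ] Cm n) (A : Af n p) : PB p L A = A.compContinuousLinearMap L := rfl

theorem dbT_lin {V : Type} [NormedAddCommGroup V] [NormedSpace ℂ V] {T : Cm n →L[ℝ] V} {u : Cm n}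
    (h : T (Complex.I • u) = Complex.I • T u) : dbT T u = 0 := by
  rw [dbT, h, smul_smul, Complex.I_mul_I, neg_one_smul, add_neg_cancel, smul_zero]

theorem fderiv_pull_I {L : Cm n → Cm n →L[ℂ] Cm n}
    (hΦ : DifferentiableAt ℂ Φ z) (hη : DifferentiableAt ℝ η (Φ z))
    (hL : DifferentiableAt ℂ L z) (ha : DifferentiableAt ℂ a z) (v : Cm n) :
    fderiv ℝ (fun y => a y • (η (Φ y)).compContinuousLinearMap (L y)) z (Complex.I • v) =
      Complex.I • (fderiv ℂ a z v • PB p (L z) (η (Φ z))) +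
      a z • (PB p (L z) (fderiv ℝ η (Φ z) (Complex.I • fderiv ℂ Φ z v)) +
        Complex.I • (η (Φ z)).fderivCompContinuousLinearMap (L z) (fderiv ℂ L z v)) := by
  have e1 : fderiv ℂ a z (Complex.I • v) = Complex.I • fderiv ℂ a z v :=
    (fderiv ℂ a z).map_smul _ _
  have e2 : fderiv ℂ Φ z (Complex.I • v) = Complex.I • fderiv ℂ Φ z v :=
    (fderiv ℂ Φ z).map_smul _ _
  have e3 : fderiv ℂ L z (Complex.I • v) = Complex.I • fderiv ℂ L z v :=
    (fderiv ℂ L z).map_smul _ _
  rw [fderiv_pull hΦ hη hL ha, e1, e2, e3, ContinuousLinearMap.map_smul, smul_assoc]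
  rfl

theorem dbV_pull {L : Cm n → Cm n →L[ℂ] Cm n}
    (hΦ : DifferentiableAt ℂ Φ z) (hη : DifferentiableAt ℝ η (Φ z))
    (hL : DifferentiableAt ℂ L z) (ha : DifferentiableAt ℂ a z) (b : Fin n) :
    dbV b (fun y => a y • (η (Φ y)).compContinuousLinearMap (L y)) z =
      a z • ∑ c, conj (fderiv ℂ Φ z (Pi.single b 1) c) •
        (dbV c η (Φ z)).compContinuousLinearMap (L z) := by
  have h1 : ∑ c, conj (fderiv ℂ Φ z (Pi.single b 1) c) •
        (dbV c η (Φ z)).compContinuousLinearMap (L z) =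
      PB p (L z) (dbT (fderiv ℝ η (Φ z)) (fderiv ℂ Φ z (Pi.single b 1))) := by
    rw [dbT_sum, map_sum]
    refine Finset.sum_congr rfl fun c _ => ?_
    rw [ContinuousLinearMap.map_smul, dbV_eq, PB_apply]
  rw [h1, dbV_eq, dbT, fderiv_pull_I hΦ hη hL ha, fderiv_pull hΦ hη hL ha, dbT,
    ContinuousLinearMap.map_smul, map_add, ContinuousLinearMap.map_smul, PB_apply, PB_apply, PB_apply]
  match_scalars
  · linear_combination ((fderiv ℂ a z) (Pi.single b 1) / 2) * Complex.I_sq
  · ring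
  · linear_combination (a z / 2) * Complex.I_sq
  · ring

theorem dzV_pull {L : Cm n → Cm n →L[ℂ] Cm n}
    (hΦ : DifferentiableAt ℂ Φ z) (hη : DifferentiableAt ℝ η (Φ z))
    (hL : DifferentiableAt ℂ L z) (ha : DifferentiableAt ℂ a z) (b : Fin n) :
    dzV b (fun y => a y • (η (Φ y)).compContinuousLinearMap (L y)) z =
      fderiv ℂ a z (Pi.single b 1) • (η (Φ z)).compContinuousLinearMap (L z) +
      a z • ((∑ c, fderiv ℂ Φ z (Pi.single b 1) c •
        (dzV c η (Φ z)).compContinuousLinearMap (L z)) +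
        (η (Φ z)).fderivCompContinuousLinearMap (L z) (fderiv ℂ L z (Pi.single b 1))) := by
  have h1 : ∑ c, fderiv ℂ Φ z (Pi.single b 1) c •
        (dzV c η (Φ z)).compContinuousLinearMap (L z) =
      PB p (L z) (dzT (fderiv ℝ η (Φ z)) (fderiv ℂ Φ z (Pi.single b 1))) := by
    rw [dzT_sum, map_sum]
    refine Finset.sum_congr rfl fun c _ => ?_
    rw [ContinuousLinearMap.map_smul, dzV_eq, PB_apply]
  rw [h1, dzV_eq, dzT, fderiv_pull_I hΦ hη hL ha, fderiv_pull hΦ hη hL ha, dzT,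
    ContinuousLinearMap.map_smul, map_sub, ContinuousLinearMap.map_smul, PB_apply, PB_apply, PB_apply]
  match_scalars
  · linear_combination (-(fderiv ℂ a z) (Pi.single b 1) / 2) * Complex.I_sq
  · ring
  · linear_combination (-a z / 2) * Complex.I_sq
  · ring

/-- the relation between the weights implies the relation between the first derivatives -/
theorem dz_log (ha : AnalyticAt ℂ a z) (h0 : a z ≠ 0) (b : Fin n) :
    dz b (fun y => ((Real.log (‖a y‖ ^ 2) : ℝ) : ℂ)) z * a z = fderiv ℂ a z (Pi.single b 1) := by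
  have hd : DifferentiableAt ℝ a z := ha.differentiableAt.restrictScalars ℝ
  have hl : DifferentiableAt ℝ (fun y => ((Real.log (‖a y‖ ^ 2) : ℝ) : ℂ)) z := by
    have h1 : DifferentiableAt ℝ (fun y => ‖a y‖ ^ 2) z := hd.norm_sq ℝ
    have h2 := h1.log (pow_ne_zero 2 (norm_ne_zero_iff.2 h0))
    exact Complex.ofRealCLM.differentiableAt.comp z h2
  have hev : (fun y => a y * cj (a y)) =ᶠ[𝓝 z] fun y =>
      Complex.exp ((Real.log (‖a y‖ ^ 2) : ℝ) : ℂ) := by
    filter_upwards [ha.continuousAt.eventually_ne h0] with y hy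
    rw [← Complex.ofReal_exp, Real.exp_log (by positivity), Complex.mul_conj,
      Complex.normSq_eq_norm_sq]
  have hc : DifferentiableAt ℝ (fun y => cj (a y)) z := Complex.conjCLE.differentiableAt.comp z hd
  have e1 : dz b (fun y => a y * cj (a y)) z = fderiv ℂ a z (Pi.single b 1) * cj (a z) := by
    have h0' : cj (0 : ℂ) = 0 := map_zero _
    rw [dz_mul hd hc, dz_cj hd, dzb_of_holo ha.differentiableAt, dz_of_holo ha.differentiableAt,
      h0', mul_zero, add_zero]
  have e2 : dz b (fun y => Complex.exp ((Real.log (‖a y‖ ^ 2) : ℝ) : ℂ)) z =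
      (a z * cj (a z)) * dz b (fun y => ((Real.log (‖a y‖ ^ 2) : ℝ) : ℂ)) z := by
    have h3 := (hl.hasFDerivAt.cexp).fderiv
    have h4 := hev.self_of_nhds
    simp only at h4
    rw [dz, h3, dz, h4]
    simp only [smul_apply, smul_eq_mul]
    ring
  have e3 := dz_congr (i := b) hev
  rw [e1, e2] at e3
  have h5 : cj (a z) ≠ 0 := by simpa using h0
  have h6 : cj (a z) * (dz b (fun y => ((Real.log (‖a y‖ ^ 2) : ℝ) : ℂ)) z * a z) =
      cj (a z) * fderiv ℂ a z (Pi.single b 1) := by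
    rw [mul_comm (cj (a z)) (fderiv ℂ a z _), e3]
    ring
  exact mul_left_cancel₀ h5 h6

end chg

end Vale.Agent.P284.H551.K
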