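import Vale.Agent.P284.H551.K.Chg1

/-!
# P284, theorem K, K3 half A (helper551): change of chart and frame for the operators and the densities
-/

open scoped ContDiff Topology ComplexConjugate ComplexOrder ENNReal
open Filter Set MeasureTheory

set_option linter.unusedSectionVars false

noncomputable section

namespace Vale.Agent.P284.H551.K

open Vale.Agent.P272.K Vale.Agent.P284.H608.K Vale.Agent.P284.H419.K

section alg
variable {n p : ℕ}

theorem inv_law {w w' J : Matrix (Fin n) (Fin n) ℂ} (hw : w.det ≠ 0)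
    (h : w = J.transpose * w' * J.map (starRingEnd ℂ)) :
    J.map (starRingEnd ℂ) * w⁻¹ * J.transpose = w'⁻¹ := by
  have hd : w.det = J.det * w'.det * (J.map (starRingEnd ℂ)).det := by
    rw [h, Matrix.det_mul, Matrix.det_mul, Matrix.det_transpose]
  have h1 : IsUnit J.transpose.det := by
    rw [Matrix.det_transpose]
    refine isUnit_iff_ne_zero.2 fun h0 => hw ?_
    rw [hd, h0, zero_mul, zero_mul]
  have h2 : IsUnit (J.map (starRingEnd ℂ)).det := by
    refine isUnit_iff_ne_zero.2 fun h0 => hw ?_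
    rw [hd, h0, mul_zero]
  rw [h, Matrix.mul_inv_rev, Matrix.mul_inv_rev, Matrix.mul_nonsing_inv_cancel_left _ _ h2,
    Matrix.nonsing_inv_mul_cancel_right _ _ h1]

theorem hn_sum_left {w : Matrix (Fin n) (Fin n) ℂ} {κ : Type} (T : Finset κ) (f : κ → Af n p)
    (A : Af n p) : hn w (∑ i ∈ T, f i) A = ∑ i ∈ T, hn w (f i) A := by
  classical
  induction T using Finset.induction_on with
  | empty => simp [hn_zero_left]
  | insert a T ha ih => rw [Finset.sum_insert ha, Finset.sum_insert ha, hn_add_left, ih]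

/-- the data of a change of chart at a point -/
structure ChP (w₁ w₂ : Matrix (Fin n) (Fin n) ℂ) (L : Cm n →L[ℂ] Cm n)
    (J : Matrix (Fin n) (Fin n) ℂ) : Prop where
  J_eq : ∀ k c, J k c = L (Pi.single c 1) k
  pos₁ : w₁.PosDef
  w_eq : w₁ = J.transpose * w₂ * J.map (starRingEnd ℂ)
  hn_eq : ∀ (q : ℕ) (A B : Af n q), hn w₁ (A.compContinuousLinearMap L)
    (B.compContinuousLinearMap L) = hn w₂ A B

variable {w₁ w₂ J : Matrix (Fin n) (Fin n) ℂ} {L : Cm n →L[ℂ] Cm n}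

theorem ChP.of (h1 : K1Stmt) (hL : Function.Bijective L) (h₁ : w₁.PosDef) (h₂ : w₂.PosDef)
    (hJ : ∀ k c, J k c = L (Pi.single c 1) k)
    (hw : w₁ = J.transpose * w₂ * J.map (starRingEnd ℂ)) : ChP w₁ w₂ L J where
  J_eq := hJ
  pos₁ := h₁
  w_eq := hw
  hn_eq q A B := by
    have hJL : J = LinearMap.toMatrix' (L : Cm n →ₗ[ℂ] Cm n) := by
      ext k c
      rw [hJ, LinearMap.toMatrix'_apply]
      rfl
    have := h1.pull n q w₂ L h₂ hL A B
    rw [← hJL, ← hw] at this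
    exact this

theorem ChP.inv (h : ChP w₁ w₂ L J) : J.map (starRingEnd ℂ) * w₁⁻¹ * J.transpose = w₂⁻¹ :=
  inv_law h.pos₁.det_pos.ne' h.w_eq

theorem ChP.inv_apply (h : ChP w₁ w₂ L J) (c c' : Fin n) :
    ∑ b, ∑ b', conj (J c b) * w₁⁻¹ b b' * J c' b' = w₂⁻¹ c c' := by
  have := congrFun (congrFun h.inv c) c'
  rw [← this, Matrix.mul_apply]
  simp only [Matrix.mul_apply, Matrix.transpose_apply, Matrix.map_apply, Finset.sum_mul]
  rw [Finset.sum_comm]

theorem swap4 {R : Type*} [AddCommMonoid R] (F : Fin n → Fin n → Fin n → Fin n → R) :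
    ∑ a, ∑ b, ∑ c, ∑ d, F a b c d = ∑ c, ∑ d, ∑ a, ∑ b, F a b c d := by
  calc ∑ a, ∑ b, ∑ c, ∑ d, F a b c d = ∑ a, ∑ c, ∑ b, ∑ d, F a b c d :=
        Finset.sum_congr rfl fun a _ => Finset.sum_comm
    _ = ∑ c, ∑ a, ∑ b, ∑ d, F a b c d := Finset.sum_comm
    _ = ∑ c, ∑ a, ∑ d, ∑ b, F a b c d := Finset.sum_congr rfl fun c _ =>
        Finset.sum_congr rfl fun a _ => Finset.sum_comm
    _ = ∑ c, ∑ d, ∑ a, ∑ b, F a b c d := Finset.sum_congr rfl fun c _ => Finset.sum_comm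

/-- the norm of the `∂̄` derivative -/
theorem ChP.Tn (h : ChP w₁ w₂ L J) (a : ℂ) (T : Fin n → Af n p) :
    Tn w₁ (fun b => a • ∑ c, conj (L (Pi.single b 1) c) • (T c).compContinuousLinearMap L) =
      (‖a‖ ^ 2 : ℝ) * Tn w₂ T := by
  have e1 : ∀ b b', hn w₁ (a • ∑ c, conj (L (Pi.single b 1) c) • (T c).compContinuousLinearMap L)
      (a • ∑ c, conj (L (Pi.single b' 1) c) • (T c).compContinuousLinearMap L) =
      (‖a‖ ^ 2 : ℝ) * ∑ c, ∑ c', conj (J c b) * J c' b' * hn w₂ (T c) (T c') := by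
    intro b b'
    rw [hn_smul_left, hn_smul_right, ← mul_assoc, Complex.mul_conj, Complex.normSq_eq_norm_sq,
      hn_sum_left]
    congr 1
    refine Finset.sum_congr rfl fun c _ => ?_
    rw [hn_sum_right]
    refine Finset.sum_congr rfl fun c' _ => ?_
    rw [hn_smul_left, hn_smul_right, h.hn_eq, h.J_eq, h.J_eq, Complex.conj_conj]
    ring
  rw [H608.K.Tn, H608.K.Tn, Finset.mul_sum]
  simp only [e1]
  have e2 : ∀ c c', w₂⁻¹ c c' * hn w₂ (T c) (T c') = ∑ b, ∑ b', w₁⁻¹ b b' *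
      (conj (J c b) * J c' b' * hn w₂ (T c) (T c')) := by
    intro c c'
    rw [← h.inv_apply, Finset.sum_mul]
    refine Finset.sum_congr rfl fun b _ => ?_
    rw [Finset.sum_mul]
    refine Finset.sum_congr rfl fun b' _ => ?_
    ring
  simp only [e2, Finset.mul_sum]
  rw [swap4]
  refine Finset.sum_congr rfl fun c _ => Finset.sum_congr rfl fun c' _ =>
    Finset.sum_congr rfl fun b _ => Finset.sum_congr rfl fun b' _ => ?_
  ring

theorem wdz_comb (L : Cm n →L[ℂ] Cm n) (hJ : ∀ k c, J k c = L (Pi.single c 1) k) (k : Fin n)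
    (A : Af n p) : (wdz k A).compContinuousLinearMap L =
      ∑ c, J k c • wdz c (A.compContinuousLinearMap L) := by
  rw [wdz_pull]
  exact Finset.sum_congr rfl fun c _ => by rw [hJ]

theorem wdz_smul' (c : Fin n) (a : ℂ) (A : Af n p) : wdz c (a • A) = a • wdz c A := by
  rw [wdz_def, wdL_smul_right, wdz_def]

/-- the curvature term -/
theorem ChP.Ad (h : ChP w₁ w₂ L J) (a : ℂ) {β₁ β₂ : Matrix (Fin n) (Fin n) ℂ}
    (hβ : β₁ = J.transpose * β₂ * J.map (starRingEnd ℂ)) (η : Af n p) :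
    Ad w₁ β₁ (a • η.compContinuousLinearMap L) = (‖a‖ ^ 2 : ℝ) * Ad w₂ β₂ η := by
  have e0 : ∀ c d, β₁ c d = ∑ k, ∑ l, J k c * β₂ k l * conj (J l d) := by
    intro c d
    rw [hβ, Matrix.mul_apply]
    simp only [Matrix.mul_apply, Matrix.transpose_apply, Matrix.map_apply, Finset.sum_mul]
    rw [Finset.sum_comm]
  have e1 : ∀ c d, hn w₁ (wdz c (a • η.compContinuousLinearMap L))
      (wdz d (a • η.compContinuousLinearMap L)) = (‖a‖ ^ 2 : ℝ) *
      hn w₁ (wdz c (η.compContinuousLinearMap L)) (wdz d (η.compContinuousLinearMap L)) := by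
    intro c d
    rw [wdz_smul', wdz_smul', hn_smul_left, hn_smul_right, ← mul_assoc, Complex.mul_conj,
      Complex.normSq_eq_norm_sq]
  have e2 : ∀ k l, hn w₂ (wdz k η) (wdz l η) = ∑ c, ∑ d, J k c * conj (J l d) *
      hn w₁ (wdz c (η.compContinuousLinearMap L)) (wdz d (η.compContinuousLinearMap L)) := by
    intro k l
    rw [← h.hn_eq, wdz_comb L h.J_eq, wdz_comb L h.J_eq, hn_sum_left]
    refine Finset.sum_congr rfl fun c _ => ?_
    rw [hn_sum_right]
    refine Finset.sum_congr rfl fun d _ => ?_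
    rw [hn_smul_left, hn_smul_right]
    ring
  rw [H608.K.Ad, H608.K.Ad]
  simp only [e0, e1, e2, Finset.mul_sum, Finset.sum_mul]
  rw [swap4]
  refine Finset.sum_congr rfl fun c _ => Finset.sum_congr rfl fun c' _ =>
    Finset.sum_congr rfl fun b _ => Finset.sum_congr rfl fun b' _ => ?_
  ring

/-- contraction as a linear map -/
def cu (p : ℕ) (v : Cm n) : Af n (p + 1) →ₗ[ℂ] Af n p where
  toFun A := A.curryLeft v
  map_add' _ _ := rfl
  map_smul' _ _ := rfl

theorem cu_apply (v : Cm n) (A : Af n (p + 1)) : cu p v A = A.curryLeft v := rfl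

/-- contraction and pullback -/
theorem cu_pull (A : Af n (p + 1)) (L : Cm n →L[ℂ] Cm n) (hJ : ∀ k c, J k c = L (Pi.single c 1) k)
    (k : Fin n) : cu p (Pi.single k 1) (A.compContinuousLinearMap L) =
      ∑ l, J l k • PB p L (cu p (Pi.single l 1) A) := by
  rw [cu_apply, ContinuousAlternatingMap.curryLeft_compContinuousLinearMap]
  have h1 : L (Pi.single k 1) = ∑ l, J l k • (Pi.single l (1 : ℂ) : Cm n) := by
    conv_lhs => rw [sum_single (L (Pi.single k 1))]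
    exact Finset.sum_congr rfl fun l _ => by rw [hJ]
  rw [h1, map_sum, ← PB_apply, map_sum]
  refine Finset.sum_congr rfl fun l _ => ?_
  rw [ContinuousLinearMap.map_smul, ContinuousLinearMap.map_smul, cu_apply]

/-- the contraction -/
theorem ChP.Lam (h : ChP w₁ w₂ L J) (a : ℂ) (T : Fin n → Af n (p + 1)) :
    Lam w₁ (fun b => a • ∑ c, conj (L (Pi.single b 1) c) • (T c).compContinuousLinearMap L) =
      a • (Lam w₂ T).compContinuousLinearMap L := by
  have e1 : ∀ k b, cu p (Pi.single k 1) (a • ∑ c, conj (L (Pi.single b 1) c) •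
      (T c).compContinuousLinearMap L) =
      ∑ c, ∑ l, (a * conj (J c b) * J l k) • PB p L (cu p (Pi.single l 1) (T c)) := by
    intro k b
    rw [LinearMap.map_smul, map_sum, Finset.smul_sum]
    refine Finset.sum_congr rfl fun c _ => ?_
    rw [LinearMap.map_smul, cu_pull _ _ h.J_eq, Finset.smul_sum, Finset.smul_sum]
    refine Finset.sum_congr rfl fun l _ => ?_
    rw [smul_smul, smul_smul, h.J_eq c b, mul_assoc]
  have e2 : H608.K.Lam w₁ (fun b => a • ∑ c, conj (L (Pi.single b 1) c) •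
      (T c).compContinuousLinearMap L) = ∑ k, ∑ b, ∑ c, ∑ l,
        (w₁⁻¹ b k * (a * conj (J c b) * J l k)) • PB p L (cu p (Pi.single l 1) (T c)) := by
    rw [H608.K.Lam]
    refine Finset.sum_congr rfl fun k _ => Finset.sum_congr rfl fun b _ => ?_
    rw [← cu_apply, e1, Finset.smul_sum]
    refine Finset.sum_congr rfl fun c _ => ?_
    rw [Finset.smul_sum]
    exact Finset.sum_congr rfl fun l _ => smul_smul _ _ _
  have e3 : a • (H608.K.Lam w₂ T).compContinuousLinearMap L = ∑ l, ∑ c,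
      (a * w₂⁻¹ c l) • PB p L (cu p (Pi.single l 1) (T c)) := by
    rw [H608.K.Lam, ← PB_apply, map_sum, Finset.smul_sum]
    refine Finset.sum_congr rfl fun l _ => ?_
    rw [map_sum, Finset.smul_sum]
    refine Finset.sum_congr rfl fun c _ => ?_
    rw [ContinuousLinearMap.map_smul, smul_smul, cu_apply]
  rw [e2, e3, swap4, Finset.sum_comm]
  refine Finset.sum_congr rfl fun l _ => Finset.sum_congr rfl fun c _ => ?_
  have s1 : ∀ (X : Af n p) (f : Fin n → ℂ), ∑ k, f k • X = (∑ k, f k) • X :=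
    fun X f => (Finset.sum_smul).symm
  simp only [s1]
  congr 1
  rw [← h.inv_apply c l, Finset.mul_sum, Finset.sum_comm]
  refine Finset.sum_congr rfl fun b _ => ?_
  rw [Finset.mul_sum]
  refine Finset.sum_congr rfl fun k _ => ?_
  ring

end alg

section loc
variable {n p : ℕ} {Φ : Cm n → Cm n} {z : Cm n} {a : Cm n → ℂ} {η : Cm n → Af n p}
  {φ₁ φ₂ : Cm n → ℝ} {w₁ w₂ : Matrix (Fin n) (Fin n) ℂ}

theorem jm_eq (hΦ : AnalyticAt ℂ Φ z) (k c : Fin n) :
    jmat Φ z k c = fderiv ℂ Φ z (Pi.single c 1) k := jmat_apply hΦ.differentiableAt k c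

/-- the relation between the weights -/
theorem log_rel (h : ∀ᶠ y in 𝓝 z, Real.exp (-φ₁ y) * ‖a y‖ ^ 2 = Real.exp (-φ₂ (Φ y))) :
    (∀ᶠ y in 𝓝 z, a y ≠ 0) ∧ φ₁ =ᶠ[𝓝 z] fun y => φ₂ (Φ y) + Real.log (‖a y‖ ^ 2) := by
  have h1 : ∀ᶠ y in 𝓝 z, a y ≠ 0 := by
    filter_upwards [h] with y hy h0
    rw [h0, norm_zero] at hy
    have := Real.exp_pos (-φ₂ (Φ y))
    rw [← hy] at this
    simp at this
  refine ⟨h1, ?_⟩
  filter_upwards [h, h1] with y hy h0
  have h2 : Real.log (Real.exp (-φ₁ y) * ‖a y‖ ^ 2) = Real.log (Real.exp (-φ₂ (Φ y))) := by rw [hy]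
  rw [Real.log_mul (Real.exp_ne_zero _) (pow_ne_zero _ (norm_ne_zero_iff.2 h0)), Real.log_exp,
    Real.log_exp] at h2
  linarith

theorem dz_rel (hΦ : AnalyticAt ℂ Φ z) (ha : AnalyticAt ℂ a z) (hφ : ContDiffAt ℝ ∞ φ₂ (Φ z))
    (h : ∀ᶠ y in 𝓝 z, Real.exp (-φ₁ y) * ‖a y‖ ^ 2 = Real.exp (-φ₂ (Φ y))) (b : Fin n) :
    dz b (fun y => (φ₁ y : ℂ)) z * a z = fderiv ℂ a z (Pi.single b 1) +
      a z * ∑ c, fderiv ℂ Φ z (Pi.single b 1) c * dz c (fun y => (φ₂ y : ℂ)) (Φ z) := by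
  obtain ⟨h0, h1⟩ := log_rel h
  have h2 : (fun y => (φ₁ y : ℂ)) =ᶠ[𝓝 z] fun y => ((φ₂ (Φ y) : ℝ) : ℂ) +
      ((Real.log (‖a y‖ ^ 2) : ℝ) : ℂ) := by
    filter_upwards [h1] with y hy
    rw [hy]
    push_cast
    rfl
  have hd2 : DifferentiableAt ℝ (fun y => (φ₂ y : ℂ)) (Φ z) :=
    (ofReal_contDiffAt hφ).differentiableAt (by simp)
  have hd1 : DifferentiableAt ℝ (fun y => ((φ₂ (Φ y) : ℝ) : ℂ)) z :=
    hd2.comp z (hΦ.differentiableAt.restrictScalars ℝ)
  have hl : DifferentiableAt ℝ (fun y => ((Real.log (‖a y‖ ^ 2) : ℝ) : ℂ)) z := by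
    have h3 : DifferentiableAt ℝ (fun y => ‖a y‖ ^ 2) z :=
      (ha.differentiableAt.restrictScalars ℝ).norm_sq ℝ
    have h4 := h3.log (pow_ne_zero 2 (norm_ne_zero_iff.2 h0.self_of_nhds))
    exact Complex.ofRealCLM.differentiableAt.comp z h4
  rw [dz_congr h2, dz_add hd1 hl, add_mul, dz_log ha h0.self_of_nhds, add_comm]
  congr 1
  have e1 : dz b (fun y => ((φ₂ (Φ y) : ℝ) : ℂ)) z = _ :=
    dz_comp_holo (i := b) (f := fun y => (φ₂ y : ℂ)) hd2 hΦ.differentiableAt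
  rw [e1, Finset.sum_mul, Finset.mul_sum]
  refine Finset.sum_congr rfl fun c _ => ?_
  rw [jm_eq hΦ]
  ring

theorem cHess_rel (hΦ : AnalyticAt ℂ Φ z) (ha : AnalyticAt ℂ a z) (hφ : ContDiffAt ℝ ∞ φ₂ (Φ z))
    (h : ∀ᶠ y in 𝓝 z, Real.exp (-φ₁ y) * ‖a y‖ ^ 2 = Real.exp (-φ₂ (Φ y))) :
    cHess φ₁ z = (jmat Φ z).transpose * cHess φ₂ (Φ z) * (jmat Φ z).map (starRingEnd ℂ) := by
  obtain ⟨h0, h1⟩ := log_rel h
  have h2 : ContDiffAt ℝ 2 φ₂ (Φ z) := hφ.of_le (WithTop.coe_le_coe.2 le_top)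
  have h3 : ContDiffAt ℝ 2 Φ z := real_smooth hΦ
  have hl : ContDiffAt ℝ 2 (fun y => Real.log (‖a y‖ ^ 2)) z := by
    have h4 : ContDiffAt ℝ 2 a z := real_smooth ha
    exact (h4.norm_sq ℝ).log (pow_ne_zero 2 (norm_ne_zero_iff.2 h0.self_of_nhds))
  rw [cHess_congr h1, cHess_add (f := fun y => φ₂ (Φ y)) (h2.comp z h3) hl,
    cHess_log_norm_sq ha.contDiffAt h0.self_of_nhds, add_zero, cHess_comp h2 hΦ.contDiffAt]

/-- the ∂̄-derivatives of a form in another chart -/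
theorem dT_loc (h : ChP w₁ w₂ (fderiv ℂ Φ z) (jmat Φ z)) (hΦ : AnalyticAt ℂ Φ z)
    (ha : AnalyticAt ℂ a z) (hη : DifferentiableAt ℝ η (Φ z)) :
    Tn w₁ (fun b => dbV b (fun y => a y • (η (Φ y)).compContinuousLinearMap (fderiv ℂ Φ y)) z) =
      (‖a z‖ ^ 2 : ℝ) * Tn w₂ fun b => dbV b η (Φ z) := by
  rw [← h.Tn]
  congr 1
  funext b
  exact dbV_pull hΦ.differentiableAt hη hΦ.fderiv.differentiableAt ha.differentiableAt b

theorem SL_loc {η : Cm n → Af n (p + 1)} {w₁ w₂ : Cm n → Matrix (Fin n) (Fin n) ℂ}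
    (h : ChP (w₁ z) (w₂ (Φ z)) (fderiv ℂ Φ z) (jmat Φ z))
    (hΦ : AnalyticAt ℂ Φ z) (ha : AnalyticAt ℂ a z) (hη : DifferentiableAt ℝ η (Φ z)) :
    SL w₁ (fun y => a y • (η (Φ y)).compContinuousLinearMap (fderiv ℂ Φ y)) z =
      a z • (SL w₂ η (Φ z)).compContinuousLinearMap (fderiv ℂ Φ z) := by
  have e1 : (fun b => dbV b (fun y => a y •
      (η (Φ y)).compContinuousLinearMap (fderiv ℂ Φ y)) z) = fun b => a z • ∑ c,
        conj (fderiv ℂ Φ z (Pi.single b 1) c) •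
        (dbV c η (Φ z)).compContinuousLinearMap (fderiv ℂ Φ z) :=
    funext fun b => dbV_pull hΦ.differentiableAt hη hΦ.fderiv.differentiableAt ha.differentiableAt b
  rw [SL, SL, e1, h.Lam, ← PB_apply, ← PB_apply, map_neg, smul_neg]

/-- the second derivative is symmetric -/
theorem snd_symm (hΦ : AnalyticAt ℂ Φ z) (u v : Cm n) :
    fderiv ℂ (fderiv ℂ Φ) z u v = fderiv ℂ (fderiv ℂ Φ) z v u := by
  have h1 : IsSymmSndFDerivAt ℂ Φ z :=
    (hΦ.contDiffAt (n := 2)).isSymmSndFDerivAt (by simp)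
  exact h1.eq u v

theorem dhL_loc (hΦ : AnalyticAt ℂ Φ z) (ha : AnalyticAt ℂ a z) (hφ : ContDiffAt ℝ ∞ φ₂ (Φ z))
    (h : ∀ᶠ y in 𝓝 z, Real.exp (-φ₁ y) * ‖a y‖ ^ 2 = Real.exp (-φ₂ (Φ y)))
    (hη : DifferentiableAt ℝ η (Φ z)) :
    dhL φ₁ (fun y => a y • (η (Φ y)).compContinuousLinearMap (fderiv ℂ Φ y)) z =
      a z • (dhL φ₂ η (Φ z)).compContinuousLinearMap (fderiv ℂ Φ z) := by
  set L := fderiv ℂ Φ z with hL
  set B : Cm n →L[ℂ] Af n p := (η (Φ z)).fderivCompContinuousLinearMap L ∘L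
    fderiv ℂ (fderiv ℂ Φ) z with hB
  have hB0 : AU n p B = 0 :=
    ContinuousAlternatingMap.alternatizeUncurryFin_fderivCompContinuousLinearMap_eq_zero _ _
      fun x y => snd_symm hΦ x y
  have hBs : ∑ b, wdz b (B (Pi.single b 1)) = 0 := by
    have e1 : B = ∑ b, (ContinuousLinearMap.proj (R := ℂ) (φ := fun _ : Fin n => ℂ) b).smulRight
        (B (Pi.single b 1)) := by
      refine ContinuousLinearMap.ext fun v => ?_
      conv_lhs => rw [sum_single v, map_sum]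
      rw [sum_apply]
      refine Finset.sum_congr rfl fun b _ => ?_
      rw [ContinuousLinearMap.map_smul]
      rfl
    have e2 := hB0
    rw [e1, map_sum] at e2
    exact e2
  have hd : ∀ b, dzV b (fun y => a y • (η (Φ y)).compContinuousLinearMap (fderiv ℂ Φ y)) z -
      dz b (fun y => (φ₁ y : ℂ)) z • (a z • (η (Φ z)).compContinuousLinearMap L) =
      (∑ c, (a z * L (Pi.single b 1) c) • PB p L (dzV c η (Φ z) -
        dz c (fun y => (φ₂ y : ℂ)) (Φ z) • η (Φ z))) + a z • B (Pi.single b 1) := by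
    intro b
    rw [dzV_pull hΦ.differentiableAt hη hΦ.fderiv.differentiableAt ha.differentiableAt b, smul_smul,
      dz_rel hΦ ha hφ h, ← hL]
    have e1 : ∀ c, (a z * L (Pi.single b 1) c) • PB p L (dzV c η (Φ z) -
        dz c (fun y => (φ₂ y : ℂ)) (Φ z) • η (Φ z)) =
        a z • (L (Pi.single b 1) c • (dzV c η (Φ z)).compContinuousLinearMap L) -
        (a z * (L (Pi.single b 1) c * dz c (fun y => (φ₂ y : ℂ)) (Φ z))) •
          (η (Φ z)).compContinuousLinearMap L := by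
      intro c
      rw [map_sub, ContinuousLinearMap.map_smul, PB_apply, PB_apply]
      module
    have s1 : ∀ (X : Af n p) (f : Fin n → ℂ), ∑ k, f k • X = (∑ k, f k) • X :=
      fun X f => (Finset.sum_smul).symm
    simp only [e1]
    rw [Finset.sum_sub_distrib, s1, ← Finset.smul_sum, ← Finset.mul_sum]
    simp only [hB, ContinuousLinearMap.comp_apply]
    module
  rw [dhL_eq, dhL_eq]
  refine (Finset.sum_congr rfl fun b _ => congrArg (wdz b) (hd b)).trans ?_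
  simp only [wdz_def, wdL_add_right, wdL_sum_right, wdL_smul_right]
  rw [Finset.sum_add_distrib]
  have h2 : ∑ b, a z • wdL (ContinuousLinearMap.proj (R := ℂ) (φ := fun _ : Fin n => ℂ) b)
      (B (Pi.single b 1)) = 0 := by
    rw [← Finset.smul_sum]
    have := hBs
    simp only [wdz_def] at this
    rw [this, smul_zero]
  rw [h2, add_zero, ← PB_apply, map_sum, Finset.smul_sum, Finset.sum_comm]
  refine Finset.sum_congr rfl fun c _ => ?_
  rw [← wdz_def, PB_apply, PB_apply, wdz_pull, Finset.smul_sum]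
  refine Finset.sum_congr rfl fun b _ => ?_
  rw [smul_smul, wdz_def]

end loc

end Vale.Agent.P284.H551.K
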