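import Vale.Agent.P299.H863.Comm

/-!
# P284, theorem K (helper551): Friedrichs' theorem for first order operators with smooth coefficients
-/

namespace Vale.Agent.P284.H551.K

open MeasureTheory Filter Topology
open scoped ContDiff ENNReal
open Vale.Agent.P363.R.Sob Vale.Agent.P299.H863

noncomputable section

set_option linter.unusedSectionVars false

variable {E : Type*} [NormedAddCommGroup E] [NormedSpace ℝ E] [FiniteDimensional ℝ E]
  [MeasurableSpace E] [BorelSpace E]
variable {V W : Type*} [NormedAddCommGroup V] [NormedSpace ℝ V]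
  [NormedAddCommGroup W] [NormedSpace ℝ W]
variable {μ : Measure E} [μ.IsAddHaarMeasure] [CompleteSpace V] [CompleteSpace W]

/-- a smooth coefficient, Lipschitz and bounded -/
structure Cf (a : E → V →L[ℝ] W) : Prop where
  sm : ContDiff ℝ ∞ a
  lip : ∃ L : NNReal, LipschitzWith L a
  bd : ∃ M : ℝ, ∀ x, ‖a x‖ ≤ M

/-- the bound of the kernel of the commutator -/
theorem commK_le {a : E → V →L[ℝ] W} {L : NNReal} (hL : LipschitzWith L a) (v : E) (n : ℕ)
    (x z : E) : ‖commK μ a v n x z‖ₑ ≤ L * ‖v‖ₑ * (ENNReal.ofReal (‖z‖ *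
      ‖fderiv ℝ ((stdBump n : ContDiffBump (0 : E)).normed μ) z‖) +
        ENNReal.ofReal ((stdBump n : ContDiffBump (0 : E)).normed μ z)) := by
  set ρ := (stdBump n : ContDiffBump (0 : E)).normed μ with hρ
  have hρ0 : 0 ≤ ρ z := (stdBump n : ContDiffBump (0 : E)).nonneg_normed z
  have h1 : ‖commK μ a v n x z‖ ≤ L * ‖v‖ * (‖z‖ * ‖fderiv ℝ ρ z‖ + ρ z) := by
    have h2 : ‖a x - a (x - z)‖ ≤ L * ‖z‖ := by
      have := hL.dist_le_mul x (x - z)
      rwa [dist_eq_norm, dist_eq_norm, sub_sub_cancel] at this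
    have h3 : ‖fderiv ℝ a (x - z) v‖ ≤ L * ‖v‖ :=
      ((fderiv ℝ a (x - z)).le_opNorm v).trans (by
        gcongr; exact norm_fderiv_le_of_lipschitz ℝ hL)
    calc ‖commK μ a v n x z‖ ≤ ‖(fderiv ℝ ρ z v) • (a x - a (x - z))‖ +
          ‖ρ z • (fderiv ℝ a (x - z) v)‖ := norm_add_le _ _
      _ ≤ (‖fderiv ℝ ρ z‖ * ‖v‖) * (L * ‖z‖) + ρ z * (L * ‖v‖) := by
          rw [norm_smul, norm_smul, Real.norm_of_nonneg hρ0]
          gcongr
          exact (fderiv ℝ ρ z).le_opNorm v
      _ = _ := by ring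
  calc ‖commK μ a v n x z‖ₑ = ENNReal.ofReal ‖commK μ a v n x z‖ := (ofReal_norm _).symm
    _ ≤ ENNReal.ofReal (L * ‖v‖ * (‖z‖ * ‖fderiv ℝ ρ z‖ + ρ z)) := ENNReal.ofReal_le_ofReal h1
    _ = _ := by
      rw [ENNReal.ofReal_mul (by positivity), ENNReal.ofReal_mul (by positivity),
        ENNReal.ofReal_add (by positivity) hρ0, ofReal_norm, ENNReal.ofReal_coe_nnreal]

/-- the commutator with the mollification, for functions which are not smooth -/
def cmt (μ : Measure E) (a : E → V →L[ℝ] W) (v : E) (n : ℕ) (u : E → V) (x : E) : W :=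
  ∫ z, commK μ a v n x z (u (x - z)) ∂μ

theorem cmt_bound {a : E → V →L[ℝ] W} {L : NNReal} (hL : LipschitzWith L a) (v : E) (n : ℕ)
    {u : E → V} (hu : StronglyMeasurable u) :
    eLpNorm (cmt μ a v n u) 2 μ ≤ (L * ‖v‖ₑ * (frC μ + 1)) * eLpNorm u 2 μ := by
  have hm2 : Measurable (fun z : E => ENNReal.ofReal (‖z‖ *
      ‖fderiv ℝ ((stdBump n : ContDiffBump (0 : E)).normed μ) z‖) +
      ENNReal.ofReal ((stdBump n : ContDiffBump (0 : E)).normed μ z)) :=
    ((continuous_fr n).measurable.ennreal_ofReal).add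
    ((stdBump n : ContDiffBump (0 : E)).continuous_normed).measurable.ennreal_ofReal
  refine (eLpNorm_kernel_le (hm2.const_mul (L * ‖v‖ₑ)) (commK_le hL v n) hu).trans (le_of_eq ?_)
  congr 1
  rw [lintegral_const_mul _ hm2,
    lintegral_add_left ((continuous_fr n).measurable.ennreal_ofReal), lintegral_fr]
  congr 2
  rw [← ofReal_integral_eq_lintegral_ofReal (stdBump n : ContDiffBump (0 : E)).integrable_normed
        (Eventually.of_forall fun x => (stdBump n : ContDiffBump (0 : E)).nonneg_normed x),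
    (stdBump n : ContDiffBump (0 : E)).integral_normed, ENNReal.ofReal_one]

theorem cmt_congr (a : E → V →L[ℝ] W) (v : E) (n : ℕ) {u u' : E → V} (h : u =ᵐ[μ] u') :
    cmt μ a v n u = cmt μ a v n u' := by
  funext x
  refine integral_congr_ae ?_
  have h1 : ∀ᵐ z ∂μ, u (x - z) = u' (x - z) :=
    (Measure.measurePreserving_sub_left μ x).quasiMeasurePreserving.ae h
  filter_upwards [h1] with z hz
  rw [hz]

/-- the derivative of the mollification -/
theorem fderiv_moll_eq (ρ : ContDiffBump (0 : E)) {f : E → V} (hf : LocallyIntegrable f μ)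
    (v x : E) : fderiv ℝ (moll μ ρ f) x v = ∫ s, (fderiv ℝ (ρ.normed μ) (x - s) v) • f s ∂μ := by
  have h1 := (ρ.hasCompactSupport_normed (μ := μ)).hasFDerivAt_convolution_left
    (ContinuousLinearMap.lsmul ℝ ℝ) (ρ.contDiff_normed (n := 1)) hf x
  rw [moll, h1.fderiv]
  rw [convolution_def]
  have hint : Integrable (fun t => (ContinuousLinearMap.precompL E (ContinuousLinearMap.lsmul ℝ ℝ))
      (fderiv ℝ (ρ.normed μ) t) (f (x - t))) μ := by
    have := ((ρ.hasCompactSupport_normed (μ := μ)).fderiv ℝ).convolutionExists_left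
      (ContinuousLinearMap.precompL E (ContinuousLinearMap.lsmul ℝ ℝ : ℝ →L[ℝ] V →L[ℝ] V))
      ((ρ.contDiff_normed (n := 1)).continuous_fderiv (by simp)) hf x
    exact this
  rw [ContinuousLinearMap.integral_apply hint]
  simp only [ContinuousLinearMap.precompL_apply, ContinuousLinearMap.lsmul_apply]
  rw [← integral_sub_left_eq_self (fun s => (fderiv ℝ (ρ.normed μ) (x - s) v) • f s) μ x]
  simp

/-- a bounded smooth coefficient acts on `L²` -/
theorem Cf.memLp {a : E → V →L[ℝ] W} (ha : Cf a) {u : E → V} (hu : MemLp u 2 μ) :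
    MemLp (fun y => a y (u y)) 2 μ := by
  obtain ⟨M, hM⟩ := ha.bd
  refine MemLp.of_le_mul (c := M) hu ?_ (Eventually.of_forall fun y => ?_)
  · exact ContinuousLinearMap.aestronglyMeasurable_comp₂ (L := ContinuousLinearMap.id ℝ (V →L[ℝ] W))
      ha.sm.continuous.aestronglyMeasurable hu.1
  · exact ((a y).le_opNorm _).trans (mul_le_mul_of_nonneg_right (hM y) (norm_nonneg _))

/-- the derivative of a coefficient acts on `L²` -/
theorem Cf.memLp' {a : E → V →L[ℝ] W} (ha : Cf a) (v : E) {u : E → V} (hu : MemLp u 2 μ) :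
    MemLp (fun y => fderiv ℝ a y v (u y)) 2 μ := by
  obtain ⟨L, hL⟩ := ha.lip
  refine MemLp.of_le_mul (c := L * ‖v‖) hu ?_ (Eventually.of_forall fun y => ?_)
  · have h1 : Continuous fun y => fderiv ℝ a y v :=
      (ha.sm.continuous_fderiv (by simp)).clm_apply continuous_const
    exact ContinuousLinearMap.aestronglyMeasurable_comp₂
      (L := ContinuousLinearMap.id ℝ (V →L[ℝ] W)) h1.aestronglyMeasurable hu.1
  · refine ((fderiv ℝ a y v).le_opNorm _).trans (mul_le_mul_of_nonneg_right ?_ (norm_nonneg _))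
    refine ((fderiv ℝ a y).le_opNorm v).trans ?_
    gcongr
    exact norm_fderiv_le_of_lipschitz ℝ hL

theorem test_fd (n : ℕ) (x v : E) :
    Test (fun s => fderiv ℝ ((stdBump n : ContDiffBump (0 : E)).normed μ) (x - s) v) := by
  set ρ := (stdBump n : ContDiffBump (0 : E)).normed μ with hρ
  have hT : Test (fun s => ρ (x - s)) := test_normed_sub _ x
  have hρd : ∀ s, fderiv ℝ (fun s => ρ (x - s)) s v = - fderiv ℝ ρ (x - s) v := by
    intro s
    have hd : HasFDerivAt ρ (fderiv ℝ ρ (x - s)) (x - s) :=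
      (((stdBump n : ContDiffBump (0 : E)).contDiff_normed (n := 1)).differentiable
        (by simp) _).hasFDerivAt
    have := hd.comp s ((hasFDerivAt_const x s).sub (hasFDerivAt_id s))
    have e4 : (fun s => ρ (x - s)) = ρ ∘ (fun s => x - s) := rfl
    rw [e4, HasFDerivAt.fderiv this]
    simp
  have h1 := hT.fderiv v
  simp only [hρd] at h1
  have e : (-(fun s => -(fderiv ℝ ρ (x - s)) v)) = fun s => fderiv ℝ ρ (x - s) v := by
    funext s
    simp
  refine ⟨by simpa using h1.1.neg, ?_⟩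
  rw [← e]
  exact h1.2.neg

/-- the commutator as an integral over `y` -/
theorem cmt_aux {a : E → V →L[ℝ] W} (ha : Cf a) (v : E) (n : ℕ) {u : E → V} (hu : MemLp u 2 μ)
    (x : E) : Integrable (fun s =>
      (fderiv ℝ ((stdBump n : ContDiffBump (0 : E)).normed μ) (x - s) v) • (a x - a s) (u s) +
      (stdBump n : ContDiffBump (0 : E)).normed μ (x - s) • fderiv ℝ a s v (u s)) μ ∧
    cmt μ a v n u x = ∫ s,
      ((fderiv ℝ ((stdBump n : ContDiffBump (0 : E)).normed μ) (x - s) v) • (a x - a s) (u s) +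
      (stdBump n : ContDiffBump (0 : E)).normed μ (x - s) • fderiv ℝ a s v (u s)) ∂μ := by
  set ρ := (stdBump n : ContDiffBump (0 : E)).normed μ with hρ
  have hul := hu.locallyIntegrable (by norm_num : (1 : ℝ≥0∞) ≤ 2)
  have hal := (ha.memLp hu).locallyIntegrable (by norm_num : (1 : ℝ≥0∞) ≤ 2)
  have hal' := (ha.memLp' v hu).locallyIntegrable (by norm_num : (1 : ℝ≥0∞) ≤ 2)
  have i1 := (test_fd (μ := μ) n x v).integrable_smul (μ := μ) hul
  have i2 := (test_fd (μ := μ) n x v).integrable_smul (μ := μ) hal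
  have i3 := (test_normed_sub (μ := μ) (stdBump n) x).integrable_smul (μ := μ) hal'
  constructor
  · have h1 : Integrable (fun s => (fderiv ℝ ρ (x - s) v) • (a x) (u s)) μ := by
      have := (a x).integrable_comp i1
      simpa only [map_smul] using this
    have h2 := (h1.sub i2).add i3
    refine h2.congr (Eventually.of_forall fun s => ?_)
    simp only [Pi.add_apply, Pi.sub_apply, sub_apply, smul_sub]
    rfl
  · rw [cmt, ← integral_sub_left_eq_self (fun s => ((fderiv ℝ ρ (x - s) v) • (a x - a s) (u s) +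
      ρ (x - s) • fderiv ℝ a s v (u s))) μ x]
    refine integral_congr_ae (Eventually.of_forall fun z => ?_)
    simp only [commK, sub_sub_cancel, add_apply, smul_apply]
    rfl

/-- one term of the operator -/
theorem cmt_eq {a : E → V →L[ℝ] W} (ha : Cf a) (v : E) (n : ℕ) {u : E → V} (hu : MemLp u 2 μ)
    (x : E) :
    a x (fderiv ℝ (moll μ (stdBump n) u) x v) =
      cmt μ a v n u x + ∫ s, ((fderiv ℝ ((stdBump n : ContDiffBump (0 : E)).normed μ) (x - s) v) •
        a s (u s) - (stdBump n : ContDiffBump (0 : E)).normed μ (x - s) • fderiv ℝ a s v (u s)) ∂μ := by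
  set ρ := (stdBump n : ContDiffBump (0 : E)).normed μ with hρ
  have hul := hu.locallyIntegrable (by norm_num : (1 : ℝ≥0∞) ≤ 2)
  have hal := (ha.memLp hu).locallyIntegrable (by norm_num : (1 : ℝ≥0∞) ≤ 2)
  have hal' := (ha.memLp' v hu).locallyIntegrable (by norm_num : (1 : ℝ≥0∞) ≤ 2)
  have i1 := (test_fd (μ := μ) n x v).integrable_smul (μ := μ) hul
  have i2 := (test_fd (μ := μ) n x v).integrable_smul (μ := μ) hal
  have i3 := (test_normed_sub (μ := μ) (stdBump n) x).integrable_smul (μ := μ) hal'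
  have i4 := (cmt_aux ha v n hu x (μ := μ)).1
  rw [fderiv_moll_eq _ hul, ← (a x).integral_comp_comm i1, (cmt_aux ha v n hu x).2]
  have h5 := integral_add i4 (i2.sub i3)
  refine Eq.trans ?_ h5
  refine integral_congr_ae (Eventually.of_forall fun s => ?_)
  simp only [Pi.sub_apply, sub_apply, smul_sub, map_smul]
  abel

theorem cmt_eq2 {a : E → V →L[ℝ] W} (ha : Cf a) (v : E) (n : ℕ) {u : E → V} (hu : MemLp u 2 μ) :
    cmt μ a v n u = fun x => a x (fderiv ℝ (moll μ (stdBump n) u) x v) -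
      (fderiv ℝ (moll μ (stdBump n) fun y => a y (u y)) x v -
        moll μ (stdBump n) (fun y => fderiv ℝ a y v (u y)) x) := by
  funext x
  have hal := (ha.memLp hu).locallyIntegrable (by norm_num : (1 : ℝ≥0∞) ≤ 2)
  have hal' := (ha.memLp' v hu).locallyIntegrable (by norm_num : (1 : ℝ≥0∞) ≤ 2)
  have i2 := (test_fd (μ := μ) n x v).integrable_smul (μ := μ) hal
  have i3 := (test_normed_sub (μ := μ) (stdBump n) x).integrable_smul (μ := μ) hal'
  have h1 := cmt_eq ha v n hu x (μ := μ)
  rw [fderiv_moll_eq _ hal, moll_apply', ← integral_sub i2 i3, h1]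
  abel

theorem cmt_cont {a : E → V →L[ℝ] W} (ha : Cf a) (v : E) (n : ℕ) {u : E → V} (hu : MemLp u 2 μ) :
    Continuous (cmt μ a v n u) := by
  have hul := hu.locallyIntegrable (by norm_num : (1 : ℝ≥0∞) ≤ 2)
  have hal := (ha.memLp hu).locallyIntegrable (by norm_num : (1 : ℝ≥0∞) ≤ 2)
  have hal' := (ha.memLp' v hu).locallyIntegrable (by norm_num : (1 : ℝ≥0∞) ≤ 2)
  rw [cmt_eq2 ha v n hu]
  have h1 : Continuous fun x => fderiv ℝ (moll μ (stdBump n) u) x v :=
    ((moll_contDiff _ hul).continuous_fderiv (by simp)).clm_apply continuous_const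
  have h2 : Continuous fun x => fderiv ℝ (moll μ (stdBump n) fun y => a y (u y)) x v :=
    ((moll_contDiff _ hal).continuous_fderiv (by simp)).clm_apply continuous_const
  exact (ha.sm.continuous.clm_apply h1).sub (h2.sub (moll_contDiff _ hal').continuous)

/-! ### convergence of the commutator -/

theorem cmt_smooth {a : E → V →L[ℝ] W} (ha : Cf a) (v : E) {u : E → V} (hu : ContDiff ℝ ∞ u)
    (hc : HasCompactSupport u) :
    Tendsto (fun n => eLpNorm (cmt μ a v n u) 2 μ) atTop (𝓝 0) := by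
  have hud : ContDiff ℝ ∞ (fun y => fderiv ℝ u y v) :=
    (hu.fderiv_right (m := ∞) (by simp)).clm_apply contDiff_const
  have hcd : HasCompactSupport (fun y => fderiv ℝ u y v) := hc.fderiv_apply (𝕜 := ℝ) v
  have hum : MemLp (fun y => fderiv ℝ u y v) 2 μ :=
    hud.continuous.memLp_of_hasCompactSupport hcd
  have ham := ha.memLp hum
  obtain ⟨M, hM⟩ := ha.bd
  have hM0 : 0 ≤ M := (norm_nonneg _).trans (hM 0)
  have hwd : IsWD μ v u (fun y => fderiv ℝ u y v) :=
    isWD_of_differentiable hu.continuous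
      (fun x => ((hu.differentiable (by simp)) x).hasFDerivAt.hasLineDerivAt v)
      hud.continuous.locallyIntegrable
  have e : ∀ n, cmt μ a v n u = (fun x => a x ((moll μ (stdBump n) (fun y => fderiv ℝ u y v) -
      fun y => fderiv ℝ u y v) x)) -
      (moll μ (stdBump n) (fun y => a y (fderiv ℝ u y v)) - fun y => a y (fderiv ℝ u y v)) := by
    intro n
    funext x
    have h1 := comm_eq ha.sm hu v n x (μ := μ)
    show (∫ z, commK μ a v n x z (u (x - z)) ∂μ) = _
    rw [← h1, fderiv_moll _ hwd hu.continuous.locallyIntegrable]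
    simp only [Pi.sub_apply, map_sub]
    abel
  have t1 := tendsto_moll_std (μ := μ) (by norm_num : (2 : ℝ≥0∞) ≠ ⊤) hum
  have t2 := tendsto_moll_std (μ := μ) (by norm_num : (2 : ℝ≥0∞) ≠ ⊤) ham
  have hmm : ∀ n, MemLp (moll μ (stdBump n) (fun y => fderiv ℝ u y v)) 2 μ := fun n =>
    (moll_contDiff _ hud.continuous.locallyIntegrable).continuous.memLp_of_hasCompactSupport
      (moll_hasCompactSupport _ hcd)
  have hcd2 : HasCompactSupport (fun y => a y (fderiv ℝ u y v)) := by
    refine hcd.mono' ?_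
    intro y hy
    refine subset_tsupport _ ?_
    intro h0
    exact hy (by simp only [h0, map_zero])
  have hac : Continuous (fun y => a y (fderiv ℝ u y v)) :=
    ha.sm.continuous.clm_apply hud.continuous
  have hmm2 : ∀ n, MemLp (moll μ (stdBump n) (fun y => a y (fderiv ℝ u y v))) 2 μ := fun n =>
    (moll_contDiff _ hac.locallyIntegrable).continuous.memLp_of_hasCompactSupport
      (moll_hasCompactSupport _ hcd2)
  have hb : ∀ n, eLpNorm (cmt μ a v n u) 2 μ ≤ ENNReal.ofReal M *
      eLpNorm (moll μ (stdBump n) (fun y => fderiv ℝ u y v) - fun y => fderiv ℝ u y v) 2 μ +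
      eLpNorm (moll μ (stdBump n) (fun y => a y (fderiv ℝ u y v)) -
        fun y => a y (fderiv ℝ u y v)) 2 μ := by
    intro n
    rw [e n]
    refine (eLpNorm_sub_le (ha.memLp ((hmm n).sub hum)).1 ((hmm2 n).sub ham).1
      (by norm_num)).trans ?_
    gcongr
    exact eLpNorm_le_mul_eLpNorm_of_ae_le_mul (c := M) (Eventually.of_forall fun x =>
      ((a x).le_opNorm _).trans (mul_le_mul_of_nonneg_right (hM x) (norm_nonneg _))) 2
  refine tendsto_of_tendsto_of_tendsto_of_le_of_le tendsto_const_nhds ?_ (fun n => zero_le) hb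
  have h3 := (ENNReal.Tendsto.const_mul t1 (a := ENNReal.ofReal M)
    (Or.inr ENNReal.ofReal_ne_top)).add t2
  simpa using h3

theorem cmt_sub {a : E → V →L[ℝ] W} (ha : Cf a) (v : E) (n : ℕ) {u u' : E → V}
    (hu : MemLp u 2 μ) (hu' : MemLp u' 2 μ) :
    cmt μ a v n (u - u') = cmt μ a v n u - cmt μ a v n u' := by
  funext x
  have h1 := cmt_aux ha v n hu x (μ := μ)
  have h2 := cmt_aux ha v n hu' x (μ := μ)
  rw [Pi.sub_apply, (cmt_aux ha v n (hu.sub hu') x).2, h1.2, h2.2, ← integral_sub h1.1 h2.1]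
  refine integral_congr_ae (Eventually.of_forall fun s => ?_)
  simp only [Pi.sub_apply, map_sub, smul_sub]
  abel

/-- **the commutator tends to zero** for functions in `L²` with compact support -/
theorem cmt_tendsto {a : E → V →L[ℝ] W} (ha : Cf a) (v : E) {u : E → V} (hu : MemLp u 2 μ)
    (hc : HasCompactSupport u) :
    Tendsto (fun n => eLpNorm (cmt μ a v n u) 2 μ) atTop (𝓝 0) := by
  obtain ⟨L, hL⟩ := ha.lip
  have hul := hu.locallyIntegrable (by norm_num : (1 : ℝ≥0∞) ≤ 2)
  set K : ℝ≥0∞ := L * ‖v‖ₑ * (frC μ + 1) with hK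
  have hKt : K ≠ ⊤ := by
    refine ENNReal.mul_ne_top (ENNReal.mul_ne_top ENNReal.coe_ne_top enorm_ne_top) ?_
    exact ENNReal.add_ne_top.2 ⟨frC_ne_top, ENNReal.one_ne_top⟩
  have hms : ∀ m, MemLp (moll μ (stdBump m) u) 2 μ := fun m =>
    (moll_contDiff _ hul).continuous.memLp_of_hasCompactSupport (moll_hasCompactSupport _ hc)
  -- the bound
  have hb : ∀ m n, eLpNorm (cmt μ a v n u) 2 μ ≤
      eLpNorm (cmt μ a v n (moll μ (stdBump m) u)) 2 μ +
        K * eLpNorm (moll μ (stdBump m) u - u) 2 μ := by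
    intro m n
    have h1 : cmt μ a v n u = cmt μ a v n (moll μ (stdBump m) u) -
        cmt μ a v n (moll μ (stdBump m) u - u) := by
      rw [cmt_sub ha v n (hms m) hu]
      abel
    have h3 := (hms m).sub hu
    have h2 : eLpNorm (cmt μ a v n (moll μ (stdBump m) u - u)) 2 μ ≤
        K * eLpNorm (moll μ (stdBump m) u - u) 2 μ := by
      have h4 := cmt_bound hL v n h3.1.stronglyMeasurable_mk (μ := μ)
      rw [← cmt_congr a v n h3.1.ae_eq_mk, ← eLpNorm_congr_ae h3.1.ae_eq_mk] at h4
      exact h4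
    rw [h1]
    refine (eLpNorm_sub_le (cmt_cont ha v n (hms m)).aestronglyMeasurable
      (cmt_cont ha v n h3).aestronglyMeasurable (by norm_num)).trans ?_
    gcongr
  rw [ENNReal.tendsto_nhds_zero]
  intro ε hε
  by_cases hεt : ε = ⊤
  · rw [hεt]
    exact Eventually.of_forall fun n => le_top
  have hε2 : 0 < ε / 2 := ENNReal.half_pos hε.ne'
  have t1 : Tendsto (fun m => K * eLpNorm (moll μ (stdBump m) u - u) 2 μ) atTop (𝓝 0) := by
    have := ENNReal.Tendsto.const_mul (tendsto_moll_std (μ := μ) (by norm_num : (2 : ℝ≥0∞) ≠ ⊤) hu)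
      (a := K) (Or.inr hKt)
    simpa using this
  obtain ⟨m, hm⟩ := ((ENNReal.tendsto_nhds_zero.1 t1) (ε / 2) hε2).exists
  have t2 := cmt_smooth ha v (μ := μ) (moll_contDiff (μ := μ) (stdBump m) hul)
    (moll_hasCompactSupport (stdBump m) hc)
  filter_upwards [(ENNReal.tendsto_nhds_zero.1 t2) (ε / 2) hε2] with n hn
  calc eLpNorm (cmt μ a v n u) 2 μ ≤ _ := hb m n
    _ ≤ ε / 2 + ε / 2 := add_le_add hn hm
    _ = ε := ENNReal.add_halves ε

/-! ### first order operators -/

/-- a first order operator `Σ a_j ∂_{v_j} + b` -/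
structure FO (E V W J : Type*) [NormedAddCommGroup E] [NormedAddCommGroup V] [NormedSpace ℝ V]
    [NormedAddCommGroup W] [NormedSpace ℝ W] where
  a : J → E → V →L[ℝ] W
  v : J → E
  b : E → V →L[ℝ] W

variable {J : Type*} [Fintype J]

/-- the value of the operator -/
def FO.ap (P : FO E V W J) (u : E → V) (x : E) : W :=
  ∑ j, P.a j x (fderiv ℝ u x (P.v j)) + P.b x (u x)

/-- `P u = F` in the sense of distributions -/
def FO.Weak (P : FO E V W J) (μ : Measure E) (u : E → V) (F : E → W) : Prop :=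
  ∀ χ : E → ℝ, Test χ → ∫ x, χ x • F x ∂μ = ∫ x, (χ x • P.b x (u x) -
    ∑ j, (fderiv ℝ χ x (P.v j) • P.a j x (u x) + χ x • fderiv ℝ (P.a j) x (P.v j) (u x))) ∂μ

/-- **Friedrichs' theorem** -/
theorem friedrichs (P : FO E V W J) (ha : ∀ j, Cf (P.a j)) (hb : Cf P.b) {u : E → V} {F : E → W}
    (hu : MemLp u 2 μ) (hc : HasCompactSupport u) (hF : MemLp F 2 μ) (hw : P.Weak μ u F) :
    Tendsto (fun n => eLpNorm (fun x => P.ap (moll μ (stdBump n) u) x - F x) 2 μ) atTop (𝓝 0) := by
  have hbu := hb.memLp hu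
  have key : ∀ n, (fun x => P.ap (moll μ (stdBump n) u) x - F x) =
      (∑ j, cmt μ (P.a j) (P.v j) n u) + ((fun x => P.b x ((moll μ (stdBump n) u - u) x)) -
        (moll μ (stdBump n) (fun y => P.b y (u y)) - fun y => P.b y (u y))) +
      (moll μ (stdBump n) F - F) := by
    intro n
    funext x
    set ρ := (stdBump n : ContDiffBump (0 : E)).normed μ with hρ
    have hT : Test (fun s => ρ (x - s)) := test_normed_sub _ x
    have hρd : ∀ s v, fderiv ℝ (fun s => ρ (x - s)) s v = - fderiv ℝ ρ (x - s) v := by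
      intro s v
      have hd : HasFDerivAt ρ (fderiv ℝ ρ (x - s)) (x - s) :=
        (((stdBump n : ContDiffBump (0 : E)).contDiff_normed (n := 1)).differentiable
          (by simp) _).hasFDerivAt
      have := hd.comp s ((hasFDerivAt_const x s).sub (hasFDerivAt_id s))
      have e4 : (fun s => ρ (x - s)) = ρ ∘ (fun s => x - s) := rfl
      rw [e4, HasFDerivAt.fderiv this]
      simp
    have i0 := hT.integrable_smul (μ := μ)
      (hbu.locallyIntegrable (by norm_num : (1 : ℝ≥0∞) ≤ 2))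
    have i2 := fun j => (test_fd (μ := μ) n x (P.v j)).integrable_smul (μ := μ)
      (((ha j).memLp hu).locallyIntegrable (by norm_num : (1 : ℝ≥0∞) ≤ 2))
    have i3 := fun j => hT.integrable_smul (μ := μ)
      (((ha j).memLp' (P.v j) hu).locallyIntegrable (by norm_num : (1 : ℝ≥0∞) ≤ 2))
    have h1 := hw _ hT
    have h2 : ∫ s, (ρ (x - s) • P.b s (u s) -
        ∑ j, (fderiv ℝ (fun s => ρ (x - s)) s (P.v j) • P.a j s (u s) +
          ρ (x - s) • fderiv ℝ (P.a j) s (P.v j) (u s))) ∂μ =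
        (∫ s, ρ (x - s) • P.b s (u s) ∂μ) + ∑ j, ∫ s,
          ((fderiv ℝ ρ (x - s) (P.v j)) • P.a j s (u s) -
            ρ (x - s) • fderiv ℝ (P.a j) s (P.v j) (u s)) ∂μ := by
      have i5 : ∀ j, Integrable (fun s => (fderiv ℝ ρ (x - s)) (P.v j) • (P.a j s) (u s) -
          ρ (x - s) • ((fderiv ℝ (P.a j) s) (P.v j)) (u s)) μ := fun j => (i2 j).sub (i3 j)
      rw [← integral_finsetSum _ fun j _ => i5 j,
        ← integral_add i0 (integrable_finsetSum _ fun j _ => i5 j)]
      refine integral_congr_ae (Eventually.of_forall fun s => ?_)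
      simp only [hρd, neg_smul]
      rw [sub_eq_add_neg, ← Finset.sum_neg_distrib]
      congr 1
      refine Finset.sum_congr rfl fun j _ => ?_
      abel
    rw [h2] at h1
    simp only [Pi.add_apply, Pi.sub_apply, Finset.sum_apply, FO.ap, map_sub]
    rw [moll_apply' (stdBump n) F x, h1, moll_apply' (stdBump n) (fun y => P.b y (u y)) x,
      Finset.sum_congr rfl fun j _ => cmt_eq (ha j) (P.v j) n hu x (μ := μ),
      Finset.sum_add_distrib]
    abel
  have hul := hu.locallyIntegrable (by norm_num : (1 : ℝ≥0∞) ≤ 2)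
  have hms : ∀ m, MemLp (moll μ (stdBump m) u) 2 μ := fun m =>
    (moll_contDiff _ hul).continuous.memLp_of_hasCompactSupport (moll_hasCompactSupport _ hc)
  have hcb : HasCompactSupport (fun y => P.b y (u y)) := by
    refine hc.mono' ?_
    intro y hy
    refine subset_tsupport _ ?_
    intro h0
    exact hy (by simp only [h0, map_zero])
  have hms2 : ∀ m, MemLp (moll μ (stdBump m) fun y => P.b y (u y)) 2 μ := fun m =>
    (moll_contDiff _ (hbu.locallyIntegrable (by norm_num))).continuous.memLp_of_hasCompactSupport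
      (moll_hasCompactSupport _ hcb)
  obtain ⟨M, hM⟩ := hb.bd
  have hmF : ∀ n, AEStronglyMeasurable (moll μ (stdBump n) F - F) μ := fun n =>
    (moll_contDiff _ (hF.locallyIntegrable (by norm_num))).continuous.aestronglyMeasurable.sub hF.1
  have m1 : ∀ n, AEStronglyMeasurable (∑ j, cmt μ (P.a j) (P.v j) n u) μ := fun n =>
    Finset.aestronglyMeasurable_sum _ fun j _ =>
      (cmt_cont (ha j) (P.v j) n hu).aestronglyMeasurable
  have m2 : ∀ n, AEStronglyMeasurable (fun x => P.b x ((moll μ (stdBump n) u - u) x)) μ := fun n =>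
    (hb.memLp ((hms n).sub hu)).1
  have m3 : ∀ n, AEStronglyMeasurable (moll μ (stdBump n) (fun y => P.b y (u y)) -
      fun y => P.b y (u y)) μ := fun n => ((hms2 n).sub hbu).1
  have bound : ∀ n, eLpNorm (fun x => P.ap (moll μ (stdBump n) u) x - F x) 2 μ ≤
      (∑ j, eLpNorm (cmt μ (P.a j) (P.v j) n u) 2 μ) +
        (ENNReal.ofReal M * eLpNorm (moll μ (stdBump n) u - u) 2 μ +
          eLpNorm (moll μ (stdBump n) (fun y => P.b y (u y)) - fun y => P.b y (u y)) 2 μ) +
        eLpNorm (moll μ (stdBump n) F - F) 2 μ := by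
    intro n
    rw [key n]
    refine (eLpNorm_add_le ((m1 n).add ((m2 n).sub (m3 n))) (hmF n) (by norm_num)).trans ?_
    gcongr
    refine (eLpNorm_add_le (m1 n) ((m2 n).sub (m3 n)) (by norm_num)).trans ?_
    gcongr
    · exact eLpNorm_sum_le (fun j _ => (cmt_cont (ha j) (P.v j) n hu).aestronglyMeasurable)
        (by norm_num)
    · refine (eLpNorm_sub_le (m2 n) (m3 n) (by norm_num)).trans ?_
      gcongr
      exact eLpNorm_le_mul_eLpNorm_of_ae_le_mul (c := M) (Eventually.of_forall fun x =>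
        ((P.b x).le_opNorm _).trans (mul_le_mul_of_nonneg_right (hM x) (norm_nonneg _))) 2
  refine tendsto_of_tendsto_of_tendsto_of_le_of_le tendsto_const_nhds ?_ (fun n => zero_le) bound
  have s1 : Tendsto (fun n => ∑ j, eLpNorm (cmt μ (P.a j) (P.v j) n u) 2 μ) atTop (𝓝 0) := by
    have := tendsto_finsetSum (Finset.univ : Finset J) fun j _ =>
      cmt_tendsto (ha j) (P.v j) hu hc
    simpa using this
  have s2 := ENNReal.Tendsto.const_mul (tendsto_moll_std (μ := μ) (by norm_num : (2 : ℝ≥0∞) ≠ ⊤) hu)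
    (a := ENNReal.ofReal M) (Or.inr ENNReal.ofReal_ne_top)
  have s3 := tendsto_moll_std (μ := μ) (by norm_num : (2 : ℝ≥0∞) ≠ ⊤) hbu
  have s4 := tendsto_moll_std (μ := μ) (by norm_num : (2 : ℝ≥0∞) ≠ ⊤) hF
  have s5 := (s1.add (s2.add s3)).add s4
  simpa using s5

end

end Vale.Agent.P284.H551.K
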